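import Mathlib

-- ▼ part R001/LS/Basic
section

/-! R001, block LS: the large sieve inequality (Fejér-type kernel and duality, finite sums only). -/

set_option autoImplicit false

namespace Crest.Agent.R001.LS

open Finset

/-- `e(x) = exp(2πix)`. -/
noncomputable def e (x : ℝ) : ℂ := Complex.exp (2 * Real.pi * x * Complex.I)

theorem e_add (x y : ℝ) : e (x + y) = e x * e y := by
  unfold e
  rw [← Complex.exp_add]
  congr 1
  push_cast
  ring

theorem e_zero : e 0 = 1 := by simp [e]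

theorem norm_e (x : ℝ) : ‖e x‖ = 1 := by
  unfold e
  have h : (2 * Real.pi * x * Complex.I : ℂ) = ((2 * Real.pi * x : ℝ) : ℂ) * Complex.I := by
    push_cast
    ring
  rw [h, Complex.norm_exp_ofReal_mul_I]

theorem e_neg (x : ℝ) : e (-x) = (starRingEnd ℂ) (e x) := by
  unfold e
  rw [← Complex.exp_conj]
  congr 1
  simp only [map_mul, Complex.conj_I, Complex.conj_ofReal, map_ofNat]
  push_cast
  ring

theorem e_int (n : ℤ) : e n = 1 := by
  unfold e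
  rw [Complex.exp_eq_one_iff]
  exact ⟨n, by push_cast; ring⟩


theorem e_natMul (k : ℕ) (x : ℝ) : e (k * x) = e x ^ k := by
  unfold e
  rw [← Complex.exp_nat_mul]
  congr 1
  push_cast
  ring

/-- Dirichlet kernel. -/
noncomputable def D (K : ℕ) (x : ℝ) : ℂ := ∑ k ∈ range K, e (k * x)

theorem norm_D_le (K : ℕ) (x : ℝ) : ‖D K x‖ ≤ K := by
  unfold D
  refine (norm_sum_le _ _).trans ?_
  simp [norm_e]

theorem norm_e_sub_one (x : ℝ) : ‖e x - 1‖ = 2 * |Real.sin (Real.pi * x)| := by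
  have h1 : e x - 1 = e (x / 2) * (e (x / 2) - e (-(x / 2))) := by
    rw [mul_sub, ← e_add, ← e_add]
    simp [e_zero]
  rw [h1, norm_mul, norm_e, one_mul]
  have h2 : e (x / 2) - e (-(x / 2)) = ((2 * Real.sin (Real.pi * x) : ℝ) : ℂ) * Complex.I := by
    unfold e
    have h3 : (2 * Real.pi * ((x / 2 : ℝ) : ℂ) * Complex.I : ℂ) = ((Real.pi * x : ℝ) : ℂ) * Complex.I := by
      push_cast; ring
    have h4 : (2 * Real.pi * ((-(x / 2) : ℝ) : ℂ) * Complex.I : ℂ) =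
        ((-(Real.pi * x) : ℝ) : ℂ) * Complex.I := by
      push_cast; ring
    rw [h3, h4, Complex.exp_mul_I, Complex.exp_mul_I, ← Complex.ofReal_cos, ← Complex.ofReal_sin,
      ← Complex.ofReal_cos, ← Complex.ofReal_sin, Real.cos_neg, Real.sin_neg]
    push_cast
    ring
  rw [h2, norm_mul, Complex.norm_I, mul_one, Complex.norm_real, Real.norm_eq_abs, abs_mul,
    abs_of_nonneg (by norm_num : (0 : ℝ) ≤ 2)]

/-- `|sin πx| ≥ 2‖x‖` (distance to the nearest integer). -/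
theorem sin_ge (x : ℝ) : 2 * |x - round x| ≤ |Real.sin (Real.pi * x)| := by
  set y : ℝ := x - round x with hy
  have hy2 : |y| ≤ 1 / 2 := abs_sub_round x
  have h1 : |Real.sin (Real.pi * x)| = |Real.sin (Real.pi * y)| := by
    have h2 : Real.pi * x = Real.pi * y + (round x : ℤ) * Real.pi := by
      rw [hy]; ring
    rw [h2, Real.sin_add_int_mul_pi, abs_mul]
    rcases Int.even_or_odd (round x) with h | h
    · simp [h.neg_one_zpow]
    · simp [h.neg_one_zpow]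
  rw [h1]
  have h3 : |Real.sin (Real.pi * y)| = Real.sin (Real.pi * |y|) := by
    have h4 : Real.sin (Real.pi * |y|) = Real.sin |Real.pi * y| := by
      rw [abs_mul, abs_of_pos Real.pi_pos]
    rw [h4, Real.abs_sin_eq_sin_abs_of_abs_le_pi]
    rw [abs_mul, abs_of_pos Real.pi_pos]
    nlinarith [Real.pi_pos]
  rw [h3]
  have h5 := Real.mul_le_sin (x := Real.pi * |y|) (by positivity) (by nlinarith [Real.pi_pos])
  have h6 : 2 / Real.pi * (Real.pi * |y|) = 2 * |y| := by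
    field_simp
  linarith

theorem norm_D_mul (K : ℕ) (x : ℝ) : ‖D K x‖ * (2 * |x - round x|) ≤ 1 := by
  have h1 : D K x * (e x - 1) = e (K * x) - 1 := by
    unfold D
    rw [e_natMul]
    have : ∑ k ∈ range K, e (k * x) = ∑ k ∈ range K, e x ^ k := by
      refine sum_congr rfl fun k _ => e_natMul k x
    rw [this]
    exact geom_sum_mul (e x) K
  have h2 : ‖D K x‖ * ‖e x - 1‖ ≤ 2 := by
    rw [← norm_mul, h1]
    refine (norm_sub_le _ _).trans ?_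
    rw [norm_e, norm_one]
    norm_num
  rw [norm_e_sub_one] at h2
  have h3 := sin_ge x
  have h4 : 0 ≤ ‖D K x‖ := norm_nonneg _
  nlinarith

end Crest.Agent.R001.LS
end

-- ▼ part R001/LS/Spaced

/-! R001, block LS: large sieve for δ-spaced points. -/

set_option autoImplicit false

namespace Crest.Agent.R001.LS

open Finset

/-- one-sided version of `sum_inv_sq_le`. -/
theorem sum_inv_sq_pos_le {ι : Type*} (t : Finset ι) (y : ι → ℝ) (δ : ℝ) (hδ : 0 < δ)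
    (hy : ∀ i ∈ t, δ ≤ y i) (hys : ∀ i ∈ t, ∀ j ∈ t, i ≠ j → δ ≤ |y i - y j|) :
    ∑ i ∈ t, 1 / (y i) ^ 2 ≤ 2 / δ ^ 2 := by
  classical
  set f : ι → ℕ := fun i => ⌊y i / δ⌋₊ with hf
  have hf1 : ∀ i ∈ t, 1 ≤ f i := by
    intro i hi
    rw [hf]
    simp only
    rw [Nat.one_le_floor_iff, le_div_iff₀ hδ, one_mul]
    exact hy i hi
  have hfl : ∀ i ∈ t, (f i : ℝ) * δ ≤ y i := by
    intro i hi
    have h1 : 0 ≤ y i / δ := div_nonneg (hδ.le.trans (hy i hi)) hδ.le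
    have := Nat.floor_le h1
    rwa [le_div_iff₀ hδ] at this
  have hfu : ∀ i, y i < ((f i : ℝ) + 1) * δ := by
    intro i
    have := Nat.lt_floor_add_one (y i / δ)
    rwa [div_lt_iff₀ hδ] at this
  have hinj : Set.InjOn f t := by
    intro i hi j hj hij
    by_contra hne
    have h1 := hys i hi j hj hne
    have h2 := hfl i hi
    have h3 := hfl j hj
    have h4 := hfu i
    have h5 := hfu j
    rw [hij] at h2 h4
    have h6 : |y i - y j| < δ := by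
      rw [abs_lt]
      constructor <;> nlinarith
    linarith
  have h1 : ∑ i ∈ t, 1 / (y i) ^ 2 ≤ ∑ i ∈ t, (1 / δ ^ 2) * (((f i : ℝ)) ^ 2)⁻¹ := by
    refine sum_le_sum fun i hi => ?_
    have h2 := hfl i hi
    have h3 : (1 : ℝ) ≤ f i := by exact_mod_cast hf1 i hi
    have h4 : (0 : ℝ) < f i * δ := by positivity
    calc 1 / (y i) ^ 2 ≤ 1 / (f i * δ) ^ 2 := by
          apply one_div_le_one_div_of_le (by positivity)
          exact pow_le_pow_left₀ h4.le h2 2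
      _ = (1 / δ ^ 2) * (((f i : ℝ)) ^ 2)⁻¹ := by
          field_simp
  have h2 : ∑ i ∈ t, (((f i : ℝ)) ^ 2)⁻¹ ≤ 2 := by
    have h3 : ∑ i ∈ t, (((f i : ℝ)) ^ 2)⁻¹ = ∑ n ∈ t.image f, (((n : ℝ)) ^ 2)⁻¹ :=
      (sum_image (f := fun n : ℕ => (((n : ℝ)) ^ 2)⁻¹) hinj).symm
    rw [h3]
    set m : ℕ := (t.image f).sup id + 1 with hm
    have h4 : t.image f ⊆ Ioo 0 m := by
      intro n hn
      rw [mem_Ioo]
      constructor
      · obtain ⟨i, hi, rfl⟩ := mem_image.1 hn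
        exact hf1 i hi
      · have := Finset.le_sup (f := id) hn
        simp only [id] at this
        omega
    calc ∑ n ∈ t.image f, (((n : ℝ)) ^ 2)⁻¹ ≤ ∑ n ∈ Ioo 0 m, (((n : ℝ)) ^ 2)⁻¹ :=
          sum_le_sum_of_subset_of_nonneg h4 fun _ _ _ => by positivity
      _ ≤ 2 / ((0 : ℕ) + 1) := sum_Ioo_inv_sq_le 0 m
      _ = 2 := by norm_num
  calc ∑ i ∈ t, 1 / (y i) ^ 2 ≤ ∑ i ∈ t, (1 / δ ^ 2) * (((f i : ℝ)) ^ 2)⁻¹ := h1
    _ = (1 / δ ^ 2) * ∑ i ∈ t, (((f i : ℝ)) ^ 2)⁻¹ := by rw [mul_sum]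
    _ ≤ (1 / δ ^ 2) * 2 := by
        apply mul_le_mul_of_nonneg_left h2
        positivity
    _ = 2 / δ ^ 2 := by ring

/-- Sum of `1/x²` over reals `x` that are `δ`-spaced and of size at least `δ`. -/
theorem sum_inv_sq_le {ι : Type*} (s : Finset ι) (x : ι → ℝ) (δ : ℝ) (hδ : 0 < δ)
    (hx : ∀ i ∈ s, δ ≤ |x i|) (hsp : ∀ i ∈ s, ∀ j ∈ s, i ≠ j → δ ≤ |x i - x j|) :
    ∑ i ∈ s, 1 / (x i) ^ 2 ≤ 4 / δ ^ 2 := by
  classical
  rw [← sum_filter_add_sum_filter_not s (fun i => 0 < x i)]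
  have h1 := sum_inv_sq_pos_le (s.filter (fun i => 0 < x i)) x δ hδ
    (by
      intro i hi
      rw [mem_filter] at hi
      have := hx i hi.1
      rwa [abs_of_pos hi.2] at this)
    (by
      intro i hi j hj
      rw [mem_filter] at hi hj
      exact hsp i hi.1 j hj.1)
  have h2 := sum_inv_sq_pos_le (s.filter (fun i => ¬ 0 < x i)) (fun i => - x i) δ hδ
    (by
      intro i hi
      rw [mem_filter] at hi
      have := hx i hi.1
      rwa [abs_of_nonpos (not_lt.1 hi.2)] at this)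
    (by
      intro i hi j hj hij
      rw [mem_filter] at hi hj
      have := hsp i hi.1 j hj.1 hij
      rw [abs_sub_comm] at this
      convert this using 2
      ring)
  simp only [neg_sq] at h2
  have h3 : (4 : ℝ) / δ ^ 2 = 2 / δ ^ 2 + 2 / δ ^ 2 := by ring
  rw [h3]
  exact add_le_add h1 h2

/-- distance to the nearest integer -/
noncomputable def nd (x : ℝ) : ℝ := |x - round x|

theorem nd_le (x : ℝ) (k : ℤ) : nd x ≤ |x - k| := round_le x k

/-- Row sums of the kernel. -/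
theorem kernel_row {ι : Type*} (s : Finset ι) (α : ι → ℝ) (δ : ℝ) (hδ : 0 < δ)
    (hsp : ∀ i ∈ s, ∀ j ∈ s, i ≠ j → δ ≤ nd (α i - α j)) (K : ℕ) (i : ι) (hi : i ∈ s) :
    ∑ j ∈ s, ‖D (2 * K) (α i - α j)‖ * ‖D K (α i - α j)‖ ≤ 2 * (K : ℝ) ^ 2 + 1 / δ ^ 2 := by
  classical
  rw [← add_sum_erase s _ hi]
  have h1 : ‖D (2 * K) (α i - α i)‖ * ‖D K (α i - α i)‖ ≤ 2 * (K : ℝ) ^ 2 := by
    have h2 := norm_D_le (2 * K) (α i - α i)
    have h3 := norm_D_le K (α i - α i)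
    calc _ ≤ ((2 * K : ℕ) : ℝ) * K := mul_le_mul h2 h3 (norm_nonneg _) (Nat.cast_nonneg _)
      _ = 2 * (K : ℝ) ^ 2 := by push_cast; ring
  have h4 : ∑ j ∈ s.erase i, ‖D (2 * K) (α i - α j)‖ * ‖D K (α i - α j)‖ ≤ 1 / δ ^ 2 := by
    set x : ι → ℝ := fun j => (α i - α j) - round (α i - α j) with hxdef
    have hx : ∀ j ∈ s.erase i, δ ≤ |x j| := by
      intro j hj
      rw [mem_erase] at hj
      exact hsp i hi j hj.2 (Ne.symm hj.1)
    have hxs : ∀ j ∈ s.erase i, ∀ k ∈ s.erase i, j ≠ k → δ ≤ |x j - x k| := by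
      intro j hj k hk hjk
      rw [mem_erase] at hj hk
      have h5 := hsp k hk.2 j hj.2 (Ne.symm hjk)
      refine h5.trans ?_
      have h6 := nd_le (α k - α j) (round (α i - α j) - round (α i - α k))
      refine h6.trans (le_of_eq ?_)
      rw [hxdef]
      simp only
      congr 1
      push_cast
      ring
    have h7 := sum_inv_sq_le (s.erase i) x δ hδ hx hxs
    calc ∑ j ∈ s.erase i, ‖D (2 * K) (α i - α j)‖ * ‖D K (α i - α j)‖
        ≤ ∑ j ∈ s.erase i, (1 / 4) * (1 / (x j) ^ 2) := by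
          refine sum_le_sum fun j hj => ?_
          have h8 := norm_D_mul (2 * K) (α i - α j)
          have h9 := norm_D_mul K (α i - α j)
          have h10 : 0 < |x j| := lt_of_lt_of_le hδ (hx j hj)
          have h11 : ‖D (2 * K) (α i - α j)‖ ≤ 1 / (2 * |x j|) := by
            rw [le_div_iff₀ (by positivity)]
            exact h8
          have h12 : ‖D K (α i - α j)‖ ≤ 1 / (2 * |x j|) := by
            rw [le_div_iff₀ (by positivity)]
            exact h9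
          calc _ ≤ 1 / (2 * |x j|) * (1 / (2 * |x j|)) :=
                mul_le_mul h11 h12 (norm_nonneg _) (by positivity)
            _ = (1 / 4) * (1 / |x j| ^ 2) := by
                field_simp
                norm_num
            _ = (1 / 4) * (1 / (x j) ^ 2) := by rw [sq_abs]
      _ = (1 / 4) * ∑ j ∈ s.erase i, 1 / (x j) ^ 2 := by rw [mul_sum]
      _ ≤ (1 / 4) * (4 / δ ^ 2) := by
          apply mul_le_mul_of_nonneg_left h7
          norm_num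
      _ = 1 / δ ^ 2 := by ring
  exact add_le_add h1 h4

/-- Window lemma: an interval of length `N ≤ K` is covered `K` times. -/
theorem window (F : ℤ → ℝ) (hF : ∀ n, 0 ≤ F n) (M : ℤ) (N K : ℕ) (hNK : N ≤ K) :
    (K : ℝ) * ∑ n ∈ Ioc M (M + N), F n ≤
      ∑ j ∈ range K, ∑ i ∈ range (2 * K), F (M + 1 + i - j) := by
  have h1 : (K : ℝ) * ∑ n ∈ Ioc M (M + N), F n = ∑ j ∈ range K, ∑ n ∈ Ioc M (M + N), F n := by
    rw [sum_const, card_range, nsmul_eq_mul]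
  rw [h1]
  refine sum_le_sum fun j hj => ?_
  rw [mem_range] at hj
  have hinj : Set.InjOn (fun i : ℕ => M + 1 + (i : ℤ) - j) (range (2 * K)) := by
    intro a _ b _ hab
    simp only at hab
    omega
  have h2 : ∑ i ∈ range (2 * K), F (M + 1 + i - j) =
      ∑ n ∈ (range (2 * K)).image (fun i : ℕ => M + 1 + (i : ℤ) - j), F n :=
    (sum_image hinj).symm
  rw [h2]
  refine sum_le_sum_of_subset_of_nonneg ?_ fun n _ _ => hF n
  intro n hn
  rw [mem_Ioc] at hn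
  rw [mem_image]
  refine ⟨(n - M - 1 + j).toNat, ?_, ?_⟩
  · rw [mem_range]
    omega
  · omega

/-- Dual large sieve. -/
theorem dual {ι : Type*} (s : Finset ι) (α : ι → ℝ) (δ : ℝ) (hδ : 0 < δ)
    (hsp : ∀ i ∈ s, ∀ j ∈ s, i ≠ j → δ ≤ nd (α i - α j)) (c : ι → ℂ) (M : ℤ) (N K : ℕ)
    (hNK : N ≤ K) :
    (K : ℝ) * ∑ n ∈ Ioc M (M + N), ‖∑ i ∈ s, c i * e (n * α i)‖ ^ 2 ≤
      (2 * (K : ℝ) ^ 2 + 1 / δ ^ 2) * ∑ i ∈ s, ‖c i‖ ^ 2 := by
  have h1 := window (fun n => ‖∑ i ∈ s, c i * e (n * α i)‖ ^ 2) (fun n => by positivity) M N K hNK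
  refine h1.trans ?_
  -- expand
  have h2 : ∀ n : ℤ, ((‖∑ i ∈ s, c i * e (n * α i)‖ ^ 2 : ℝ) : ℂ) =
      ∑ i ∈ s, ∑ j ∈ s, c i * (starRingEnd ℂ) (c j) * e (n * (α i - α j)) := by
    intro n
    have h3 : ((‖∑ i ∈ s, c i * e (n * α i)‖ ^ 2 : ℝ) : ℂ) =
        (∑ i ∈ s, c i * e (n * α i)) * (starRingEnd ℂ) (∑ i ∈ s, c i * e (n * α i)) := by
      rw [Complex.mul_conj, Complex.normSq_eq_norm_sq]
    rw [h3, map_sum, sum_mul_sum]
    refine sum_congr rfl fun i _ => sum_congr rfl fun j _ => ?_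
    rw [map_mul, ← e_neg]
    have h4 : e (n * (α i - α j)) = e (n * α i) * e (-(n * α j)) := by
      rw [← e_add]
      congr 1
      ring
    rw [h4]
    ring
  have h5 : ((∑ j ∈ range K, ∑ i ∈ range (2 * K),
      ‖∑ l ∈ s, c l * e (((M + 1 + i - j : ℤ) : ℝ) * α l)‖ ^ 2 : ℝ) : ℂ) =
      ∑ i ∈ s, ∑ j ∈ s, c i * (starRingEnd ℂ) (c j) *
        (e ((M + 1 : ℤ) * (α i - α j)) * D (2 * K) (α i - α j) *
          (starRingEnd ℂ) (D K (α i - α j))) := by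
    rw [Complex.ofReal_sum]
    have h6 : ∀ j' ∈ range K, ((∑ i' ∈ range (2 * K),
        ‖∑ l ∈ s, c l * e (((M + 1 + i' - j' : ℤ) : ℝ) * α l)‖ ^ 2 : ℝ) : ℂ) =
        ∑ i' ∈ range (2 * K), ∑ i ∈ s, ∑ j ∈ s, c i * (starRingEnd ℂ) (c j) *
          e (((M + 1 + i' - j' : ℤ) : ℝ) * (α i - α j)) := by
      intro j' _
      rw [Complex.ofReal_sum]
      exact sum_congr rfl fun i' _ => h2 _
    rw [sum_congr rfl h6]
    have h7 : ∀ i ∈ s, ∀ j ∈ s, ∑ j' ∈ range K, ∑ i' ∈ range (2 * K),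
        c i * (starRingEnd ℂ) (c j) * e (((M + 1 + i' - j' : ℤ) : ℝ) * (α i - α j)) =
        c i * (starRingEnd ℂ) (c j) * (e ((M + 1 : ℤ) * (α i - α j)) * D (2 * K) (α i - α j) *
          (starRingEnd ℂ) (D K (α i - α j))) := by
      intro i _ j _
      unfold D
      rw [map_sum]
      simp_rw [← mul_sum]
      congr 1
      rw [mul_assoc, sum_mul_sum, mul_sum, sum_comm]
      refine sum_congr rfl fun i' _ => ?_
      rw [mul_sum]
      refine sum_congr rfl fun j' _ => ?_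
      rw [← e_neg, ← e_add, ← e_add]
      congr 1
      push_cast
      ring
    calc ∑ j' ∈ range K, ∑ i' ∈ range (2 * K), ∑ i ∈ s, ∑ j ∈ s, c i * (starRingEnd ℂ) (c j) *
          e (((M + 1 + i' - j' : ℤ) : ℝ) * (α i - α j))
        = ∑ j' ∈ range K, ∑ i ∈ s, ∑ i' ∈ range (2 * K), ∑ j ∈ s, c i * (starRingEnd ℂ) (c j) *
          e (((M + 1 + i' - j' : ℤ) : ℝ) * (α i - α j)) :=
          sum_congr rfl fun j' _ => sum_comm
      _ = ∑ i ∈ s, ∑ j' ∈ range K, ∑ i' ∈ range (2 * K), ∑ j ∈ s, c i * (starRingEnd ℂ) (c j) *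
          e (((M + 1 + i' - j' : ℤ) : ℝ) * (α i - α j)) := sum_comm
      _ = ∑ i ∈ s, ∑ j ∈ s, ∑ j' ∈ range K, ∑ i' ∈ range (2 * K), c i * (starRingEnd ℂ) (c j) *
          e (((M + 1 + i' - j' : ℤ) : ℝ) * (α i - α j)) := by
          refine sum_congr rfl fun i _ => ?_
          rw [sum_comm]
          rw [sum_comm]
          calc ∑ j' ∈ range K, ∑ i' ∈ range (2 * K), ∑ j ∈ s, c i * (starRingEnd ℂ) (c j) *
                e (((M + 1 + i' - j' : ℤ) : ℝ) * (α i - α j))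
              = ∑ j' ∈ range K, ∑ j ∈ s, ∑ i' ∈ range (2 * K), c i * (starRingEnd ℂ) (c j) *
                e (((M + 1 + i' - j' : ℤ) : ℝ) * (α i - α j)) :=
                sum_congr rfl fun j' _ => sum_comm
            _ = _ := sum_comm
      _ = _ := sum_congr rfl fun i hi => sum_congr rfl fun j hj => h7 i hi j hj
  have h8 : (∑ j ∈ range K, ∑ i ∈ range (2 * K),
      ‖∑ l ∈ s, c l * e (((M + 1 + i - j : ℤ) : ℝ) * α l)‖ ^ 2) ≤
      ∑ i ∈ s, ∑ j ∈ s, ‖c i‖ * ‖c j‖ * (‖D (2 * K) (α i - α j)‖ * ‖D K (α i - α j)‖) := by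
    have h9 : (0 : ℝ) ≤ ∑ j ∈ range K, ∑ i ∈ range (2 * K),
        ‖∑ l ∈ s, c l * e (((M + 1 + i - j : ℤ) : ℝ) * α l)‖ ^ 2 :=
      sum_nonneg fun _ _ => sum_nonneg fun _ _ => by positivity
    calc (∑ j ∈ range K, ∑ i ∈ range (2 * K),
        ‖∑ l ∈ s, c l * e (((M + 1 + i - j : ℤ) : ℝ) * α l)‖ ^ 2)
        = ‖((∑ j ∈ range K, ∑ i ∈ range (2 * K),
            ‖∑ l ∈ s, c l * e (((M + 1 + i - j : ℤ) : ℝ) * α l)‖ ^ 2 : ℝ) : ℂ)‖ := by
          rw [Complex.norm_real, Real.norm_of_nonneg h9]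
      _ = ‖∑ i ∈ s, ∑ j ∈ s, c i * (starRingEnd ℂ) (c j) *
            (e ((M + 1 : ℤ) * (α i - α j)) * D (2 * K) (α i - α j) *
              (starRingEnd ℂ) (D K (α i - α j)))‖ := by rw [h5]
      _ ≤ ∑ i ∈ s, ‖∑ j ∈ s, c i * (starRingEnd ℂ) (c j) *
            (e ((M + 1 : ℤ) * (α i - α j)) * D (2 * K) (α i - α j) *
              (starRingEnd ℂ) (D K (α i - α j)))‖ := norm_sum_le _ _
      _ ≤ ∑ i ∈ s, ∑ j ∈ s, ‖c i‖ * ‖c j‖ *
            (‖D (2 * K) (α i - α j)‖ * ‖D K (α i - α j)‖) := by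
          refine sum_le_sum fun i _ => (norm_sum_le _ _).trans ?_
          refine sum_le_sum fun j _ => ?_
          rw [norm_mul, norm_mul, norm_mul, norm_mul, norm_e, one_mul, RCLike.norm_conj,
            RCLike.norm_conj]
  refine h8.trans ?_
  set κ : ι → ι → ℝ := fun i j => ‖D (2 * K) (α i - α j)‖ * ‖D K (α i - α j)‖ with hκ
  have hDs : ∀ (L : ℕ) (x : ℝ), ‖D L (-x)‖ = ‖D L x‖ := by
    intro L x
    have : D L (-x) = (starRingEnd ℂ) (D L x) := by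
      unfold D
      rw [map_sum]
      refine sum_congr rfl fun k _ => ?_
      rw [← e_neg]
      congr 1
      ring
    rw [this, RCLike.norm_conj]
  have hκs : ∀ i j, κ i j = κ j i := by
    intro i j
    rw [hκ]
    simp only
    rw [← hDs (2 * K) (α i - α j), ← hDs K (α i - α j), neg_sub]
  have hrow : ∀ i ∈ s, ∑ j ∈ s, κ i j ≤ 2 * (K : ℝ) ^ 2 + 1 / δ ^ 2 := fun i hi =>
    kernel_row s α δ hδ hsp K i hi
  have hκ0 : ∀ i j, 0 ≤ κ i j := fun i j => by rw [hκ]; positivity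
  calc ∑ i ∈ s, ∑ j ∈ s, ‖c i‖ * ‖c j‖ * κ i j
      ≤ ∑ i ∈ s, ∑ j ∈ s, (‖c i‖ ^ 2 * κ i j + ‖c j‖ ^ 2 * κ j i) / 2 := by
        refine sum_le_sum fun i _ => sum_le_sum fun j _ => ?_
        rw [hκs j i]
        nlinarith [hκ0 i j, sq_nonneg (‖c i‖ - ‖c j‖), mul_nonneg (hκ0 i j) (sq_nonneg (‖c i‖ - ‖c j‖))]
    _ = ∑ i ∈ s, ∑ j ∈ s, ‖c i‖ ^ 2 * κ i j := by
        have h10 : ∑ i ∈ s, ∑ j ∈ s, ‖c j‖ ^ 2 * κ j i = ∑ i ∈ s, ∑ j ∈ s, ‖c i‖ ^ 2 * κ i j :=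
          sum_comm
        have h11 : ∑ i ∈ s, ∑ j ∈ s, (‖c i‖ ^ 2 * κ i j + ‖c j‖ ^ 2 * κ j i) / 2 =
            (∑ i ∈ s, ∑ j ∈ s, ‖c i‖ ^ 2 * κ i j + ∑ i ∈ s, ∑ j ∈ s, ‖c j‖ ^ 2 * κ j i) / 2 := by
          rw [← sum_add_distrib, sum_div]
          refine sum_congr rfl fun i _ => ?_
          rw [← sum_add_distrib, sum_div]
        rw [h11, h10]
        ring
    _ = ∑ i ∈ s, ‖c i‖ ^ 2 * ∑ j ∈ s, κ i j := by
        refine sum_congr rfl fun i _ => ?_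
        rw [mul_sum]
    _ ≤ ∑ i ∈ s, ‖c i‖ ^ 2 * (2 * (K : ℝ) ^ 2 + 1 / δ ^ 2) := by
        refine sum_le_sum fun i hi => ?_
        exact mul_le_mul_of_nonneg_left (hrow i hi) (by positivity)
    _ = (2 * (K : ℝ) ^ 2 + 1 / δ ^ 2) * ∑ i ∈ s, ‖c i‖ ^ 2 := by
        rw [mul_sum]
        refine sum_congr rfl fun i _ => ?_
        ring

/-- **Large sieve** for `δ`-spaced points. -/
theorem large_sieve {ι : Type*} (s : Finset ι) (α : ι → ℝ) (δ : ℝ) (hδ : 0 < δ)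
    (hsp : ∀ i ∈ s, ∀ j ∈ s, i ≠ j → δ ≤ nd (α i - α j)) (w : ℤ → ℂ) (M : ℤ) (N K : ℕ)
    (hNK : N ≤ K) (hK : 0 < K) :
    ∑ i ∈ s, ‖∑ n ∈ Ioc M (M + N), w n * e (n * α i)‖ ^ 2 ≤
      (2 * (K : ℝ) + 1 / (K * δ ^ 2)) * ∑ n ∈ Ioc M (M + N), ‖w n‖ ^ 2 := by
  set S : ι → ℂ := fun i => ∑ n ∈ Ioc M (M + N), w n * e (n * α i) with hS
  set c : ι → ℂ := fun i => (starRingEnd ℂ) (S i) with hc
  set A : ℝ := ∑ i ∈ s, ‖S i‖ ^ 2 with hA
  set B : ℝ := 2 * (K : ℝ) + 1 / (K * δ ^ 2) with hB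
  have hK' : (0 : ℝ) < K := by exact_mod_cast hK
  have hB0 : 0 ≤ B := by rw [hB]; positivity
  have hA0 : 0 ≤ A := sum_nonneg fun _ _ => by positivity
  have h1 : ∑ n ∈ Ioc M (M + N), ‖∑ i ∈ s, c i * e (n * α i)‖ ^ 2 ≤ B * A := by
    have h2 := dual s α δ hδ hsp c M N K hNK
    have h3 : ∑ i ∈ s, ‖c i‖ ^ 2 = A := by
      rw [hA]
      refine sum_congr rfl fun i _ => ?_
      rw [hc]
      simp only
      rw [RCLike.norm_conj]
    rw [h3] at h2
    have h4 : B * A = (2 * (K : ℝ) ^ 2 + 1 / δ ^ 2) * A / K := by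
      rw [hB]
      field_simp
    rw [h4, le_div_iff₀ hK']
    linarith
  have h5 : (A : ℂ) = ∑ n ∈ Ioc M (M + N), w n * ∑ i ∈ s, c i * e (n * α i) := by
    have h6 : (A : ℂ) = ∑ i ∈ s, S i * c i := by
      rw [hA, Complex.ofReal_sum]
      refine sum_congr rfl fun i _ => ?_
      rw [hc]
      simp only
      rw [Complex.mul_conj, Complex.normSq_eq_norm_sq]
    rw [h6]
    simp_rw [mul_sum]
    rw [sum_comm]
    refine sum_congr rfl fun i _ => ?_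
    rw [hS]
    simp only
    rw [sum_mul]
    refine sum_congr rfl fun n _ => ?_
    ring
  have h7 : A ≤ ∑ n ∈ Ioc M (M + N), ‖w n‖ * ‖∑ i ∈ s, c i * e (n * α i)‖ := by
    calc A = ‖(A : ℂ)‖ := by rw [Complex.norm_real, Real.norm_of_nonneg hA0]
      _ = ‖∑ n ∈ Ioc M (M + N), w n * ∑ i ∈ s, c i * e (n * α i)‖ := by rw [h5]
      _ ≤ ∑ n ∈ Ioc M (M + N), ‖w n * ∑ i ∈ s, c i * e (n * α i)‖ := norm_sum_le _ _
      _ = _ := sum_congr rfl fun n _ => norm_mul _ _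
  have h8 : A ^ 2 ≤ (∑ n ∈ Ioc M (M + N), ‖w n‖ ^ 2) *
      ∑ n ∈ Ioc M (M + N), ‖∑ i ∈ s, c i * e (n * α i)‖ ^ 2 :=
    (pow_le_pow_left₀ hA0 h7 2).trans (sum_mul_sq_le_sq_mul_sq _ _ _)
  set W : ℝ := ∑ n ∈ Ioc M (M + N), ‖w n‖ ^ 2 with hW
  have hW0 : 0 ≤ W := sum_nonneg fun _ _ => by positivity
  have h9 : A ^ 2 ≤ W * (B * A) := h8.trans (mul_le_mul_of_nonneg_left h1 hW0)
  rcases hA0.eq_or_lt with h10 | h10
  · rw [← h10]
    positivity
  · have h11 : A * A ≤ (B * W) * A := by nlinarith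
    exact le_of_mul_le_mul_right h11 h10

end Crest.Agent.R001.LS
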